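import Vale.Agent.P126.H584.Ent

namespace Vale.Agent.Results.P126.CompactOperator

open Vale.Agent.P126

/-- The duality conjecture for metric entropy is false, and one compact operator
`T : ℓ¹ → ℓ^∞` violates it at every scale, in both directions and with a power loss, both for
covering numbers and for entropy numbers. -/
theorem result :
    ¬ DualityConjecture ∧
      DualityFailsBetween (lp (fun _ : ℕ => ℝ) 1) (lp (fun _ : ℕ => ℝ) ⊤) := by
  refine ⟨?_, H584.TT H584.ty0, H584.compactOp _ H584.fin_T, H584.compactCl H584.fin_Ts,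
    H584.gap_T, H584.gap_Ts, ?_, ?_⟩
  · rintro ⟨a, b, ha, hb, h⟩
    obtain ⟨n, r, K, L, hn, -, -, hK, -, hQ, -, hlt, -⟩ := H584.dim_both a b ha hb
    exact absurd (h n hn K (cube n r) hK hQ).2 (not_le.2 hlt)
  · exact fun a b k₀ ha =>
      H584.ent_of_gap H584.gap_T (H584.ballImage_bdd _) H584.fin_Ts a b k₀ ha
  · exact fun a b k₀ ha =>
      H584.ent_of_gap H584.gap_Ts (H584.ballImage_bdd (H584.adjointOp _)) H584.fin_T a b k₀ ha

end Vale.Agent.Results.P126.CompactOperator
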