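import Vale.Agent.P126.H584.Main

open Pointwise

namespace Vale.Agent.Results.P126.PowerLossBothSides

open Vale.Agent.P126

/-- The duality conjecture for metric entropy is false, with a power loss in each of the two
inequalities at every fixed scale, for cubes and for cross-polytopes; conversely an arbitrarily
small power loss suffices for all bodies when the scale is large. -/
theorem result :
    (¬ ∃ a b : ℝ, 1 ≤ a ∧ 1 ≤ b ∧ ∀ n : ℕ, 1 ≤ n → ∀ K L : Set (EuclideanSpace ℝ (Fin n)),
      IsSymmBody K → IsSymmBody L →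
        1 / b * Real.log (coveringNumber (polarBody L) (a • polarBody K)) ≤
            Real.log (coveringNumber K L) ∧
        Real.log (coveringNumber K L) ≤
          b * Real.log (coveringNumber (polarBody L) (a⁻¹ • polarBody K))) ∧
    (∀ a M : ℝ, 1 ≤ a → ∃ (n : ℕ) (r : ℝ) (K : Set (EuclideanSpace ℝ (Fin n))),
      1 ≤ n ∧ 0 < r ∧ IsSymmBody K ∧ IsSymmBody (cube n r) ∧
      M ≤ Real.log (coveringNumber K (cube n r)) ∧
      Real.log (coveringNumber (polarBody (cube n r)) (a⁻¹ • polarBody K)) ≤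
        (Real.log (coveringNumber K (cube n r))) ^ (1 - Real.exp (-(60 * a)))) ∧
    (∀ a M : ℝ, 1 ≤ a → ∃ (n : ℕ) (r : ℝ) (L : Set (EuclideanSpace ℝ (Fin n))),
      1 ≤ n ∧ 0 < r ∧ IsSymmBody L ∧ IsSymmBody (polarBody (cube n r)) ∧
      M ≤ Real.log (coveringNumber (polarBody L) (a • polarBody (polarBody (cube n r)))) ∧
      Real.log (coveringNumber (polarBody (cube n r)) L) ≤
        (Real.log (coveringNumber (polarBody L) (a • polarBody (polarBody (cube n r))))) ^
          (1 - Real.exp (-(60 * a)))) ∧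
    (∀ a b : ℝ, 1 ≤ a → 1 ≤ b → ∃ (n : ℕ) (r : ℝ) (K L : Set (EuclideanSpace ℝ (Fin n))),
      1 ≤ n ∧ 0 < r ∧ Real.log n ≤ (80 * a * b) ^ Real.exp (60 * a) ∧
      IsSymmBody K ∧ IsSymmBody L ∧ IsSymmBody (cube n r) ∧ IsSymmBody (polarBody (cube n r)) ∧
      b * Real.log (coveringNumber (polarBody (cube n r)) (a⁻¹ • polarBody K)) <
        Real.log (coveringNumber K (cube n r)) ∧
      Real.log (coveringNumber (polarBody (cube n r)) L) <
        1 / b * Real.log (coveringNumber (polarBody L) (a • polarBody (polarBody (cube n r))))) ∧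
    (∀ (n J : ℕ) (K L : Set (EuclideanSpace ℝ (Fin n))), IsSymmBody K → IsSymmBody L → 2 ≤ J →
      (Real.log (coveringNumber K L)) ^ (1 - 1 / (J : ℝ)) ≤ 4608 * J * Real.log J *
        Real.log (coveringNumber (polarBody L) ((384 * J : ℝ)⁻¹ • polarBody K)) ∧
      (Real.log (coveringNumber (polarBody L) ((384 * J : ℝ) • polarBody K))) ^
        (1 - 1 / (J : ℝ)) ≤ 4608 * J * Real.log J * Real.log (coveringNumber K L)) ∧
    (∀ κ : ℝ, 0 < κ → ∃ a b : ℝ, 1 ≤ a ∧ 1 ≤ b ∧
      ∀ (n : ℕ) (K L : Set (EuclideanSpace ℝ (Fin n))), IsSymmBody K → IsSymmBody L →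
        1 / b * (Real.log (coveringNumber (polarBody L) (a • polarBody K))) ^ (1 / (1 + κ)) ≤
            Real.log (coveringNumber K L) ∧
        Real.log (coveringNumber K L) ≤
          b * (Real.log (coveringNumber (polarBody L) (a⁻¹ • polarBody K))) ^ (1 + κ)) ∧
    (∀ (n : ℕ) (K L : Set (EuclideanSpace ℝ (Fin n))) (s : ℝ), IsSymmBody K → IsSymmBody L →
      (s = 2 + Real.log (1 + Real.log (coveringNumber K L)) →
        Real.log (coveringNumber K L) ≤ 40000 * s * Real.log s *
          Real.log (coveringNumber (polarBody L) ((1000 * s)⁻¹ • polarBody K))) ∧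
      (s = 2 + Real.log (1 + Real.log (coveringNumber (polarBody L) (polarBody K))) →
        Real.log (coveringNumber (polarBody L) ((1000 * s) • polarBody K)) ≤
          40000 * s * Real.log s * Real.log (coveringNumber K L))) := by
  refine ⟨?_, fun a M ha => H584.gap_right a M ha, fun a M ha => H584.gap_left a M ha,
    fun a b ha hb => H584.dim_both a b ha hb, ?_, fun κ hκ => power_loss hκ, ?_⟩
  · rintro ⟨a, b, ha, hb, h⟩
    obtain ⟨n, r, K, L, hn, -, -, hK, -, hQ, -, hlt, -⟩ := H584.dim_both a b ha hb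
    exact absurd (h n hn K (cube n r) hK hQ).2 (not_le.2 hlt)
  · intro n J K L hK hL hJ
    exact ⟨main_upper hK hL hJ, main_lower hK hL hJ⟩
  · intro n K L s hK hL
    exact ⟨fun hs => loglog_form hK hL hs, fun hs => loglog_form_dual hK hL hs⟩

end Vale.Agent.Results.P126.PowerLossBothSides
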